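import Vale.Agent.P047.Spread
import Vale.Agent.P064.Core

/-! The spread lemma with a geometric failure bound, and the abstract threshold theorem. -/

namespace Vale.Agent.P064

open Finset Real Vale.Agent.P047
open scoped Pointwise

open Classical in
/-- The spread lemma. -/
lemma spread' {α : Type*} [DecidableEq α] {ι : Type*} (X : Finset α) {p κ : ℝ} (hp0 : 0 < p) (hp1 : p < 1) (hκ : p * κ = 16)
    (ν : ι → ℝ) (R : ℕ) :
    ∀ (I : Finset ι) (S : ι → Finset α) (q : ℝ), R * p ≤ q → q ≤ 1 → (∀ i ∈ I, 0 ≤ ν i) →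
      (∀ i ∈ I, S i ⊆ X) → (∀ i ∈ I, (S i).card < 2 ^ R) →
      (∀ T : Finset α, T.Nonempty →
        ∑ i ∈ I.filter (fun i => T ⊆ S i), ν i ≤ (1 / κ) ^ T.card) →
      (∑ i ∈ I, ν i) * ex X q (fun W => if ∃ i ∈ I, S i ⊆ W then 0 else 1)
        ≤ (1 - (1 / 4) ^ R) / 3 := by
  induction R with
  | zero =>
    intro I S q _ _ _ _ hl _
    rcases I.eq_empty_or_nonempty with rfl | ⟨i, hi⟩
    · simp
    · have h0 : S i = ∅ := by
        have := hl i hi
        rw [← card_eq_zero]; omega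
      have : (fun W : Finset α => if ∃ i ∈ I, S i ⊆ W then (0 : ℝ) else 1) = fun _ => 0 := by
        funext W
        rw [if_pos ⟨i, hi, by simp [h0]⟩]
      rw [this, ex_const]
      simp
  | succ R ih =>
    intro I S q hq0 hq1 hν hS hl hspread
    push_cast at hq0
    have hRp : (0 : ℝ) ≤ R * p := by positivity
    have h1p : 0 < 1 - p := by linarith
    set q' : ℝ := (q - p) / (1 - p) with hq'
    have hq'1 : q' ≤ 1 := by rw [hq', div_le_one h1p]; linarith
    have hq'0 : R * p ≤ q' := by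
      rw [hq', le_div_iff₀ h1p]; nlinarith
    have hconv : 1 - q = (1 - p) * (1 - q') := by
      rw [hq']; field_simp; ring
    have hmex : ∀ W : Finset α, ∀ i, ∃ k, i ∈ I → (k ∈ I ∧ S k ⊆ S i ∪ W ∧
        ∀ j ∈ I, S j ⊆ S i ∪ W → (S k \ W).card ≤ (S j \ W).card) := by
      intro W i
      by_cases hi : i ∈ I
      · obtain ⟨k, hk1, hk2⟩ := exists_min_image (I.filter (fun j => S j ⊆ S i ∪ W))
          (fun j => (S j \ W).card) ⟨i, mem_filter.2 ⟨hi, subset_union_left⟩⟩
        exact ⟨k, fun _ => ⟨(mem_filter.1 hk1).1, (mem_filter.1 hk1).2,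
          fun j hj hj2 => hk2 j (mem_filter.2 ⟨hj, hj2⟩)⟩⟩
      · exact ⟨i, fun h => absurd h hi⟩
    choose m hm using hmex
    have hfragsub : ∀ W, ∀ i ∈ I, S (m W i) \ W ⊆ S i := by
      intro W i hi a ha
      have h1 := (hm W i hi).2.1 (mem_sdiff.1 ha).1
      rcases mem_union.1 h1 with h2 | h2
      · exact h2
      · exact absurd h2 (mem_sdiff.1 ha).2
    have hround := round_bound X I S ν hν hS (2 ^ (R + 1)) (2 ^ R) (fun i hi => (hl i hi).le)
      Nat.one_le_two_pow hp0 hp1.le (by linarith) hspread m hm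
    have hpk : 0 < p * κ := by linarith
    have hround2 : (2 : ℝ) ^ (2 ^ (R + 1)) * (1 / (p * κ)) ^ (2 ^ R) ≤ (1 / 4) ^ (R + 1) := by
      have e : (2 : ℝ) ^ (2 ^ (R + 1)) * (1 / (p * κ)) ^ (2 ^ R) = (4 / (p * κ)) ^ (2 ^ R) := by
        rw [pow_succ, mul_comm (2 ^ R) 2, pow_mul, ← mul_pow]
        congr 1
        field_simp
        norm_num
      rw [e, hκ, show (4 : ℝ) / 16 = 1 / 4 by norm_num]
      exact pow_le_pow_of_le_one (by norm_num) (by norm_num) Nat.lt_two_pow_self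
    rw [ex_conv X hconv, ← ex_mul]
    have key : ∀ W1 : Finset α, W1 ⊆ X →
        (∑ i ∈ I, ν i) * ex X q' (fun W2 => if ∃ i ∈ I, S i ⊆ W1 ∪ W2 then 0 else 1)
          ≤ (1 - (1 / 4) ^ R) / 3 + ∑ i ∈ I.filter (fun i => 2 ^ R ≤ (S (m W1 i) \ W1).card), ν i := by
      intro W1 _
      set I' := I.filter (fun i => ¬ 2 ^ R ≤ (S (m W1 i) \ W1).card) with hI'
      have hsub : ∀ i ∈ I', i ∈ I := fun i hi => (mem_filter.1 hi).1
      have h1 := ih I' (fun i => S (m W1 i) \ W1) q' hq'0 hq'1 (fun i hi => hν i (hsub i hi))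
        (fun i hi => (hfragsub W1 i (hsub i hi)).trans (hS i (hsub i hi)))
        (fun i hi => not_le.1 (mem_filter.1 hi).2)
        (fun T hT => le_trans (sum_le_sum_of_subset_of_nonneg (by
            intro i hi
            obtain ⟨h1, h2⟩ := mem_filter.1 hi
            exact mem_filter.2 ⟨hsub i h1, h2.trans (hfragsub W1 i (hsub i h1))⟩)
          (fun i hi _ => hν i (mem_filter.1 hi).1)) (hspread T hT))
      have hq'00 : 0 ≤ q' := le_trans hRp hq'0
      have h2 : ex X q' (fun W2 => if ∃ i ∈ I, S i ⊆ W1 ∪ W2 then 0 else 1)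
          ≤ ex X q' (fun W2 => if ∃ i ∈ I', S (m W1 i) \ W1 ⊆ W2 then 0 else 1) := by
        refine ex_mono X hq'00 hq'1 fun W2 _ => ?_
        by_cases h : ∃ i ∈ I', S (m W1 i) \ W1 ⊆ W2
        · obtain ⟨i, hi, hi2⟩ := h
          have : ∃ i ∈ I, S i ⊆ W1 ∪ W2 := ⟨m W1 i, (hm W1 i (hsub i hi)).1, by
            intro a ha
            by_cases haW : a ∈ W1
            · exact mem_union_left _ haW
            · exact mem_union_right _ (hi2 (mem_sdiff.2 ⟨ha, haW⟩))⟩
          rw [if_pos this, if_pos ⟨i, hi, hi2⟩]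
        · rw [if_neg h]
          split_ifs <;> norm_num
      have h3 : ex X q' (fun W2 => if ∃ i ∈ I, S i ⊆ W1 ∪ W2 then 0 else 1) ≤ 1 := by
        refine le_trans (ex_mono X hq'00 hq'1 (G := fun _ => 1) fun W2 _ => ?_) (ex_const _ _ _).le
        split_ifs <;> norm_num
      have h4 : 0 ≤ ∑ i ∈ I', ν i := sum_nonneg fun i hi => hν i (hsub i hi)
      have h5 : 0 ≤ ∑ i ∈ I.filter (fun i => 2 ^ R ≤ (S (m W1 i) \ W1).card), ν i :=
        sum_nonneg fun i hi => hν i (mem_filter.1 hi).1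
      rw [← sum_filter_add_sum_filter_not I (fun i => 2 ^ R ≤ (S (m W1 i) \ W1).card), add_mul,
        add_comm]
      refine add_le_add (le_trans (mul_le_mul_of_nonneg_left h2 h4) h1) ?_
      exact mul_le_of_le_one_right h5 h3
    refine le_trans (ex_mono X hp0.le hp1.le key) ?_
    rw [ex_add, ex_const]
    rw [pow_succ (1 / 4 : ℝ) R] at hround2 ⊢
    linarith


variable {E : Type} [DecidableEq E]

theorem ex_subset (X : Finset E) {p : ℝ} (h0 : 0 ≤ p) (h1 : p ≤ 1) (S : Finset E) :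
    ex X p (fun W => if S ⊆ W then 1 else 0) ≤ p ^ S.card := by
  induction X using Finset.induction_on generalizing S with
  | empty =>
    rw [ex_empty]
    split_ifs with h
    · simp [subset_empty.1 h]
    · positivity
  | insert a X ha ih =>
    rw [ex_insert ha]
    simp only [subset_insert_iff]
    have h2 := mul_le_mul_of_nonneg_left (ih (S.erase a)) h0
    by_cases hS : a ∈ S
    · have h3 : ex X p (fun W => if S ⊆ W then 1 else 0) ≤ 0 :=
        (ex_mono X h0 h1 fun W hW => (if_neg fun h => ha (hW (h hS))).le).trans (ex_const _ _ _).le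
      rw [← card_erase_add_one hS, pow_succ']
      nlinarith
    · have h3 := mul_le_mul_of_nonneg_left (ih S) (sub_nonneg.2 h1)
      rw [erase_eq_of_notMem hS] at h2 ⊢
      linarith

variable {Γ : Type} [Group Γ] [Fintype Γ] [MulAction Γ E]

theorem ex_nu (X : Finset E) {p : ℝ} (h0 : 0 ≤ p) (h1 : p ≤ 1) (U : Finset E) :
    ex X p (fun W => nu Γ W U) ≤ p ^ U.card := by
  have h2 : ex X p (fun W => nu Γ W U) =
      (∑ g : Γ, ex X p fun W => if g • U ⊆ W then 1 else 0) / Fintype.card Γ := by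
    simp only [ex, nu]
    rw [sum_comm, sum_div]
    exact sum_congr rfl fun W _ => by rw [← mul_sum, mul_div_assoc]
  rw [h2, div_le_iff₀ (cardG_pos Γ), mul_comm, ← nsmul_eq_mul]
  exact sum_le_card_nsmul _ _ _ fun g _ => (ex_subset X h0 h1 _).trans (by rw [card_smul_finset])

theorem card_mul_nu_le (W U : Finset E) (𝒮 : Finset (Finset E))
    (h : ∀ S ∈ 𝒮, S ⊆ W ∧ ∃ g : Γ, S = g • U) : 𝒮.card * nu Γ U U ≤ nu Γ W U := by
  have h1 : 𝒮.card * nu Γ U U = ∑ S ∈ 𝒮, nu Γ S U := by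
    rw [← nsmul_eq_mul, ← sum_const]
    refine sum_congr rfl fun S hS => ?_
    obtain ⟨-, g, rfl⟩ := h S hS
    rw [nu_smul_left]
  rw [h1]
  simp only [nu]
  rw [← sum_div, sum_comm]
  refine div_le_div_of_nonneg_right (sum_le_sum fun g _ => ?_) (cardG_pos Γ).le
  have h2 : ∀ S ∈ 𝒮, g • U ⊆ S → S = g • U := fun S hS hg => by
    obtain ⟨-, g', rfl⟩ := h S hS
    exact (eq_of_subset_of_card_le hg (by simp)).symm
  rw [sum_congr rfl fun S hS => if_congr ⟨h2 S hS, fun e => e.ge⟩ rfl rfl, sum_ite_eq']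
  by_cases hg : g • U ∈ 𝒮
  · rw [if_pos hg, if_pos (h _ hg).1]
  · rw [if_neg hg]
    split_ifs <;> norm_num

theorem numerics {x : ℝ} (hx : log 2 ≤ x) : ∃ J J' d : ℕ, 2 ≤ J ∧ 1 ≤ J' ∧ (J : ℝ) ≤ 12 * x ∧
    exp (4 * x) < 2 ^ J ∧ 2 * x / 2 ^ J' * J ≤ 1 ∧
    2 * (log J' + 17 + d * log 2) + 18 + log J / (d + 1) ≤ 80 + 11 * √(log x) := by
  have l1 := log_two_gt_d9
  have l2 := log_two_lt_d9
  have hx0 : 0 < x := by linarith
  have hpow : ∀ (t : ℝ) (N : ℕ), 0 ≤ t → 2 * t ≤ N → exp t ≤ 2 ^ N := fun t N ht hN => by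
    rw [← exp_log (show (0 : ℝ) < 2 ^ N by positivity), log_pow]
    exact exp_le_exp.2 (by nlinarith)
  obtain ⟨J, j1, j2⟩ : ∃ J : ℕ, 8 * x + 1 ≤ J ∧ (J : ℝ) ≤ 12 * x :=
    ⟨⌈8 * x⌉₊ + 1, by push_cast; linarith [Nat.le_ceil (8 * x)], by
      push_cast; linarith [Nat.ceil_lt_add_one (show 0 ≤ 8 * x by positivity)]⟩
  set y := log (J : ℝ) with hy
  have y0 : 0 < y := log_pos (by linarith)
  obtain ⟨J', k0, k1, k2⟩ : ∃ J' : ℕ, 1 ≤ J' ∧ 4 * y ≤ J' ∧ (J' : ℝ) ≤ 4 * y + 2 :=
    ⟨⌈4 * y⌉₊ + 1, by omega, by push_cast; linarith [Nat.le_ceil (4 * y)], by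
      push_cast; linarith [Nat.ceil_lt_add_one (show 0 ≤ 4 * y by positivity)]⟩
  have r0 := sqrt_nonneg y
  have r1 := sq_sqrt y0.le
  refine ⟨J, J', ⌈√y⌉₊, by exact_mod_cast (show (2 : ℝ) ≤ J by linarith), k0, j2,
    (exp_lt_exp.2 (by linarith)).trans_le (hpow (4 * x + 1 / 2) J (by positivity) (by linarith)),
    ?_, ?_⟩
  · have h1 := hpow (2 * y) J' (by positivity) (by linarith)
    rw [two_mul y, exp_add, hy, exp_log (by linarith)] at h1
    rw [div_mul_eq_mul_div, div_le_one (by positivity)]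
    nlinarith
  · have d1 := Nat.le_ceil √y
    have d2 := Nat.ceil_lt_add_one r0
    have h1 : y / (⌈√y⌉₊ + 1) ≤ √y := by
      rw [div_le_iff₀ (by positivity)]
      nlinarith
    have h2 : log (J' : ℝ) ≤ 4 * √y + 2 := by
      have hJ' : (0 : ℝ) < J' := by exact_mod_cast k0
      have a1 := log_le_sub_one_of_pos (sqrt_pos.2 hJ')
      rw [log_sqrt hJ'.le] at a1
      have a2 : √(J' : ℝ) ≤ 2 * √y + 2 := sqrt_le_iff.2 ⟨by positivity, by nlinarith⟩
      linarith
    have h3 : y ≤ 4 + log x := by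
      have a1 : y ≤ log (2 ^ 4 * x) := log_le_log (by linarith) (by linarith)
      rw [log_mul (by norm_num) hx0.ne', log_pow] at a1
      push_cast at a1
      linarith
    have h4 : √y ≤ 2 + √(log x) := by
      have a1 := sqrt_nonneg (log x)
      have a2 : log x ≤ √(log x) ^ 2 := by rw [sq_sqrt']; exact le_max_left _ _
      exact sqrt_le_iff.2 ⟨by positivity, by nlinarith⟩
    have h5 : (⌈√y⌉₊ : ℝ) * log 2 ≤ √y + 1 := by nlinarith
    linarith

open Classical in
theorem threshold [Fintype E] (X H : Finset E) (hX : ∀ g : Γ, g • H ⊆ X) (hne : H.Nonempty)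
    {x p q : ℝ} (hx : log 2 ≤ x) (hE : Fintype.card E ≤ exp (2 * x)) (hp : 2 * p ≤ 1)
    (hH : ∀ U ⊆ H, U.Nonempty → nu Γ U U ≤ 2 * p ^ U.card)
    (hq : 384 * p * x * exp (80 + 11 * √(log x)) ≤ q) (hq1 : q ≤ 1) :
    ex X q (fun W => if ∃ g : Γ, g • H ⊆ W then 0 else 1) ≤ 1 / 3 := by
  obtain ⟨e, he⟩ := hne
  have l1 := log_two_gt_d9
  have hx0 : 0 < x := by linarith
  have hp0 : 0 < 2 * p := by
    simpa using (nu_pos subset_rfl).trans_le (hH {e} (by simpa) (singleton_nonempty e))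
  set Λ := -log (2 * p) with hΛ
  have hΛ0 : 0 ≤ Λ := neg_nonneg.2 (log_nonpos hp0.le hp)
  have hH' : ∀ U ⊆ H, U.card * Λ ≤ -log (nu Γ U U) := by
    intro U hU
    rw [hΛ, mul_neg, ← log_pow]
    refine neg_le_neg (log_le_log (nu_pos subset_rfl) ?_)
    rcases U.eq_empty_or_nonempty with rfl | hne
    · simp [nu]
    · refine (hH U hU hne).trans ?_
      rw [mul_pow]
      exact mul_le_mul_of_nonneg_right (le_self_pow₀ (by norm_num) hne.card_pos.ne')
        (pow_nonneg (by linarith) _)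
  have hΛ1 : Λ ≤ 2 * x := by
    have hl : Law fun _ : Unit => (1 : ℝ) := ⟨fun _ => one_pos, by simp⟩
    have h1 := entG_ge (Γ := Γ) hl fun _ => ({e} : Finset E)
    have h2 := entG_mono (Γ := Γ) hl (X := fun _ => e) (U := fun _ => ({e} : Finset E))
      fun g _ _ h => by simp [h]
    have h3 : entG Γ (fun _ : Unit => (1 : ℝ)) (fun _ => e) ≤ log (Fintype.card E) :=
      ent_le_log (law_G Γ hl) _
    have h4 := hH' {e} (by simpa)
    have : Nonempty E := ⟨e⟩
    have h5 := log_le_log (by exact_mod_cast Fintype.card_pos) hE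
    rw [log_exp] at h5
    simp only [univ_unique, sum_singleton, one_mul, card_singleton, Nat.cast_one] at h1 h4
    linarith
  obtain ⟨J, J', d, j1, j2, j3, j4, j5, j6⟩ := numerics hx
  have hc : (H.card : ℝ) ≤ exp (2 * x) := le_trans (by exact_mod_cast card_le_univ H) hE
  have e4 : exp (4 * x) = exp (2 * x) * exp (2 * x) := by rw [← exp_add]; ring_nf
  have e2 : 2 * x + 1 ≤ exp (2 * x) := add_one_le_exp _
  set r := 2 * p * exp (80 + 11 * √(log x)) with hr
  have hr0 : 0 < r := by positivity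
  have hsp : ∀ T : Finset E, T.Nonempty → nu Γ H T ≤ r ^ T.card := by
    intro T hT
    by_cases h : ∃ g : Γ, g • T ⊆ H
    · obtain ⟨g, hg⟩ := h
      have h1 := coreB hH' hΛ0 d (by omega : 1 ≤ J) j2
        (le_trans (by gcongr) j5) (by
          refine le_trans ?_ (e4 ▸ j4).le
          exact mul_le_mul hc (by linarith) hΛ0 (by positivity)) hg (by simpa using hT)
      rw [card_smul_finset] at h1
      rw [← nu_smul_right H T g, ← exp_log (nu_pos hg), ← exp_log (pow_pos hr0 _), log_pow,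
        log_mul hp0.ne' (exp_pos _).ne', log_exp]
      have h2 := mul_le_mul_of_nonneg_left j6 (Nat.cast_nonneg T.card)
      exact exp_le_exp.2 (by linarith)
    · rw [nu, sum_eq_zero fun g _ => if_neg fun h' => h ⟨g, h'⟩, zero_div]
      positivity
  have hJ2 : (2 : ℝ) ≤ J := by exact_mod_cast j1
  have hq' : J * (16 * r) ≤ q := by
    refine le_trans ?_ hq
    have := mul_le_mul_of_nonneg_right j3 (show 0 ≤ 16 * r by positivity)
    linarith
  have h := spread' X (p := 16 * r) (κ := r⁻¹) (by positivity) (by nlinarith) (by field_simp)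
    (fun _ : Γ => (Fintype.card Γ : ℝ)⁻¹) J univ (fun g => g • H) q hq' hq1
    (fun _ _ => by positivity) (fun g _ => hX g) (fun g _ => by
      rw [card_smul_finset]
      have : (H.card : ℝ) < 2 ^ J := by nlinarith
      exact_mod_cast this) fun T hT => by
      rw [one_div, inv_inv]
      refine le_of_eq_of_le ?_ (hsp T hT)
      rw [nu, sum_filter, sum_div]
      refine Fintype.sum_equiv (Equiv.inv Γ) _ _ fun g => ?_
      simp only [Equiv.inv_apply, ← subset_smul_finset_iff]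
      split_ifs <;> simp
  rw [sum_const, card_univ, nsmul_eq_mul, mul_inv_cancel₀ (cardG_pos Γ).ne', one_mul] at h
  simp only [mem_univ, true_and] at h
  have : (0 : ℝ) ≤ (1 / 4) ^ J := by positivity
  convert h.trans (show _ ≤ 1 / 3 by linarith)

end Vale.Agent.P064
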