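import Vale.Agent.P064.Defs
import Vale.Agent.P064.Spread

/-! Translation to graphs. -/

namespace Vale.Agent.P064

open Finset Real Vale.Agent.P047 SimpleGraph
open scoped Pointwise

/-- permutations of the vertices act on unordered pairs -/
@[reducible] def permAct (α : Type) : MulAction (Equiv.Perm α) (Sym2 α) where
  smul g e := e.map g
  one_smul e := by
    show e.map _ = e
    simp
  mul_smul g h e := by
    show e.map _ = (e.map h).map g
    simp [Sym2.map_map]

attribute [local instance] permAct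

variable {n : ℕ}

theorem smul_mk (g : Equiv.Perm (Fin n)) (a b : Fin n) : g • s(a, b) = s(g a, g b) := rfl

/-- all possible edges -/
def allE (n : ℕ) : Finset (Sym2 (Fin n)) := (⊤ : SimpleGraph (Fin n)).edgeFinset

theorem mk_mem_allE {a b : Fin n} : s(a, b) ∈ allE n ↔ a ≠ b := by simp [allE]

theorem gnpE_eq (p : ℝ) (φ : SimpleGraph (Fin n) → ℝ) :
    gnpE n p φ = ex (allE n) p fun W => φ (fromEdgeSet W) := by
  classical
  have hc : (allE n).card = n.choose 2 := by
    rw [allE, card_edgeFinset_top_eq_card_choose_two, Fintype.card_fin]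
  rw [gnpE, ex, hc]
  refine sum_nbij' (fun G => G.edgeFinset) (fun W => fromEdgeSet W) ?_ ?_ ?_ ?_ ?_
  · intro G _
    exact mem_powerset.2 (edgeFinset_mono le_top)
  · simp
  · intro G _
    simp
  · intro W hW
    ext e
    induction e using Sym2.inductionOn with | hf a b
    have := @mem_powerset.1 hW s(a, b)
    simp only [mk_mem_allE] at this
    simpa using this
  · intro G _
    rw [← Set.ncard_coe_finset, coe_edgeFinset, fromEdgeSet_edgeSet]

theorem gnpE_one (φ : SimpleGraph (Fin n) → ℝ) : gnpE n 1 φ = φ ⊤ := by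
  rw [gnpE_eq, ex, sum_eq_single (allE n)]
  · simp [allE]
  · intro W hW hne
    have := card_lt_card (lt_of_le_of_ne (mem_powerset.1 hW) hne)
    rw [sub_self, zero_pow (by omega)]
    simp
  · simp

variable {V : Type} (H : SimpleGraph V) (f : V ↪ Fin n)

open Classical in
/-- the edges of the embedded graph -/
noncomputable def edg : Finset (Sym2 (Fin n)) :=
  univ.filter fun e => ∃ v w, H.Adj v w ∧ e = s(f v, f w)

theorem mem_edg {e : Sym2 (Fin n)} : e ∈ edg H f ↔ ∃ v w, H.Adj v w ∧ e = s(f v, f w) := by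
  simp [edg]

theorem smul_edg (g : Equiv.Perm (Fin n)) : g • edg H f ⊆ allE n := by
  intro e he
  obtain ⟨e', he', rfl⟩ := mem_smul_finset.1 he
  obtain ⟨v, w, h, rfl⟩ := (mem_edg H f).1 he'
  rw [smul_mk, mk_mem_allE]
  exact fun e => h.ne (f.injective (g.injective e))

theorem contained_of {g : Equiv.Perm (Fin n)} {W : Finset (Sym2 (Fin n))} (h : g • edg H f ⊆ W) :
    H ⊑ fromEdgeSet (W : Set (Sym2 (Fin n))) := by
  refine ⟨⟨⟨fun v => g (f v), fun {v w} hvw => ?_⟩, g.injective.comp f.injective⟩⟩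
  rw [fromEdgeSet_adj]
  exact ⟨h (smul_mem_smul_finset (a := g) ((mem_edg H f).2 ⟨v, w, hvw, rfl⟩)),
    fun e => hvw.ne (f.injective (g.injective e))⟩

/-- the subgraph with a given set of edges -/
def subOf (U : Finset (Sym2 (Fin n))) : H.Subgraph where
  verts := {v | ∃ w, H.Adj v w ∧ s(f v, f w) ∈ U}
  Adj v w := H.Adj v w ∧ s(f v, f w) ∈ U
  adj_sub h := h.1
  edge_vert h := ⟨_, h⟩
  symm := ⟨fun _ _ h => ⟨h.1.symm, Sym2.eq_swap ▸ h.2⟩⟩

theorem copy_le [Finite V] {U : Finset (Sym2 (Fin n))} (hU : U ⊆ edg H f)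
    (W : Finset (Sym2 (Fin n))) :
    ((fromEdgeSet (W : Set (Sym2 (Fin n)))).copyCount (subOf H f U).coe : ℝ) *
      nu (Equiv.Perm (Fin n)) U U ≤ nu (Equiv.Perm (Fin n)) W U := by
  classical
  refine le_trans (mul_le_mul_of_nonneg_right ?_ (nu_nonneg _ _)) (card_mul_nu_le W U
    (W.powerset.filter fun S => ∃ g : Equiv.Perm (Fin n), S = g • U)
    fun S hS => ⟨mem_powerset.1 (mem_filter.1 hS).1, (mem_filter.1 hS).2⟩)
  rw [Nat.cast_le, copyCount]
  refine card_le_card_of_injOn (fun G' => univ.filter fun e => e ∈ G'.edgeSet) ?_ ?_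
  · intro G' hG'
    obtain ⟨e⟩ : Nonempty ((subOf H f U).coe ≃g G'.coe) := by simpa using hG'
    obtain ⟨g, hg⟩ := Equiv.Perm.exists_extending_pair (fun v : (subOf H f U).verts => f v)
      (fun v => (e v : Fin n)) (f.injective.comp Subtype.val_injective)
      (Subtype.val_injective.comp e.injective)
    refine mem_coe.2 (mem_filter.2 ⟨mem_powerset.2 fun x hx => ?_, g, Finset.ext fun x => ?_⟩)
    · have := G'.edgeSet_subset (mem_filter.1 hx).2
      rw [edgeSet_fromEdgeSet] at this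
      exact this.1
    · rw [mem_filter, mem_smul_finset]
      constructor
      · rintro ⟨-, hx⟩
        induction x using Sym2.inductionOn with | hf a b
        rw [Subgraph.mem_edgeSet] at hx
        obtain ⟨v, hv⟩ := e.surjective ⟨a, G'.edge_vert hx⟩
        obtain ⟨w, hw⟩ := e.surjective ⟨b, G'.edge_vert hx.symm⟩
        have h1 : (subOf H f U).coe.Adj v w := e.map_rel_iff.1 (by rw [hv, hw]; exact hx)
        exact ⟨_, h1.2, by rw [smul_mk, hg, hg, hv, hw]⟩
      · rintro ⟨y, hy, rfl⟩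
        obtain ⟨v, w, h, rfl⟩ := (mem_edg H f).1 (hU hy)
        have h1 : (subOf H f U).Adj v w := ⟨h, hy⟩
        have h2 : G'.coe.Adj (e ⟨v, h1.fst_mem⟩) (e ⟨w, h1.snd_mem⟩) := e.map_rel_iff.2 h1
        refine ⟨mem_univ _, ?_⟩
        rw [smul_mk, hg ⟨v, h1.fst_mem⟩, hg ⟨w, h1.snd_mem⟩]
        exact h2
  · have key : ∀ G' : (fromEdgeSet (W : Set (Sym2 (Fin n)))).Subgraph,
        Nonempty ((subOf H f U).coe ≃g G'.coe) → ∀ x ∈ G'.verts, ∃ y, G'.Adj x y := by
      rintro G' ⟨e⟩ x hx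
      obtain ⟨⟨v, w, hw⟩, hv⟩ := e.surjective ⟨x, hx⟩
      have h1 : (subOf H f U).Adj v w := hw
      have h2 : G'.coe.Adj (e ⟨v, h1.fst_mem⟩) (e ⟨w, h1.snd_mem⟩) := e.map_rel_iff.2 h1
      rw [hv] at h2
      exact ⟨_, h2⟩
    intro G₁ h₁ G₂ h₂ h
    have h3 : ∀ x y, G₁.Adj x y ↔ G₂.Adj x y := fun x y => by
      simpa using Finset.ext_iff.1 h s(x, y)
    refine Subgraph.ext (Set.ext fun x => ⟨fun hx => ?_, fun hx => ?_⟩)
      (funext₂ fun x y => propext (h3 x y))
    · obtain ⟨y, hy⟩ := key G₁ (by simpa using h₁) x hx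
      exact ((h3 x y).1 hy).fst_mem
    · obtain ⟨y, hy⟩ := key G₂ (by simpa using h₂) x hx
      exact ((h3 x y).2 hy).fst_mem

theorem pc_le [Fintype V] (hn : 2 ≤ n) (hV : Fintype.card V ≤ n) (hH : H.edgeSet.Nonempty)
    {p : ℝ} (hp : p ∈ Set.Icc (0 : ℝ) 1)
    (h : ∀ F : H.Subgraph, 1 / 2 ≤ gnpE n p fun G => (G.copyCount F.coe : ℝ)) :
    pc n H ≤ 384 * p * log n * exp (80 + 11 * √(log (log n))) := by
  classical
  obtain ⟨f⟩ : Nonempty (V ↪ Fin n) := Function.Embedding.nonempty_of_card_le (by simpa)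
  have hb : BddBelow {p | p ∈ Set.Icc (0 : ℝ) 1 ∧
      1 / 2 ≤ gnpE n p fun G => if 0 < G.copyCount H then 1 else 0} := ⟨0, fun p hp => hp.1.1⟩
  have hn' : (2 : ℝ) ≤ n := by exact_mod_cast hn
  have hx : log 2 ≤ log n := log_le_log (by norm_num) hn'
  have l1 := log_two_gt_d9
  set q := 384 * p * log n * exp (80 + 11 * √(log (log n))) with hq
  by_cases hq1 : 1 ≤ q
  · refine (csInf_le hb ⟨⟨zero_le_one, le_rfl⟩, ?_⟩).trans hq1
    rw [gnpE_one, if_pos (copyCount_pos.2 ⟨⟨⟨f, fun h e => h.ne (f.injective e)⟩, f.injective⟩⟩)]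
    norm_num
  have he : 1 ≤ exp (80 + 11 * √(log (log n))) := one_le_exp (by positivity)
  have hq0 : 0 ≤ q := by have := hp.1; have : 0 < log n := by linarith
                         positivity
  have hp2 : 2 * p ≤ 1 := by
    have h1 : 384 * p * log n ≤ q :=
      le_mul_of_one_le_right (by have := hp.1; have : 0 < log n := by linarith
                                 positivity) he
    nlinarith [hp.1]
  have ht := threshold (Γ := Equiv.Perm (Fin n)) (allE n) (edg H f) (smul_edg H f) (by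
      obtain ⟨e, he⟩ := hH
      induction e using Sym2.inductionOn with | hf v w
      exact ⟨_, (mem_edg H f).2 ⟨v, w, he, rfl⟩⟩) hx (by
      rw [Sym2.card, Fintype.card_fin, two_mul, exp_add, exp_log (by linarith), Nat.cast_choose_two]
      push_cast
      nlinarith) hp2 (fun U hU _ => by
      have h1 := h (subOf H f U)
      rw [gnpE_eq] at h1
      have h2 := mul_le_mul_of_nonneg_left h1 (nu_nonneg (Γ := Equiv.Perm (Fin n)) U U)
      rw [← ex_mul] at h2
      have h3 := h2.trans ((ex_mono _ hp.1 hp.2 fun W _ =>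
        (mul_comm _ _).le.trans (copy_le H f hU W)).trans (ex_nu _ hp.1 hp.2 U))
      linarith) hq.ge (not_le.1 hq1).le
  refine csInf_le hb ⟨⟨hq0, (not_le.1 hq1).le⟩, ?_⟩
  rw [gnpE_eq]
  have h1 := ex_const (allE n) q 1
  have h2 := ex_mono (allE n) hq0 (not_le.1 hq1).le (F := fun _ => 1)
    (G := fun W => (if 0 < (fromEdgeSet (W : Set (Sym2 (Fin n)))).copyCount H then 1 else 0) +
      if ∃ g : Equiv.Perm (Fin n), g • edg H f ⊆ W then 0 else 1) fun W _ => by
      by_cases h : ∃ g : Equiv.Perm (Fin n), g • edg H f ⊆ W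
      · obtain ⟨g, hg⟩ := h
        rw [if_pos (copyCount_pos.2 (contained_of H f hg)), if_pos ⟨g, hg⟩, add_zero]
      · rw [if_neg h]
        split_ifs <;> norm_num
  rw [ex_add] at h2
  linarith

theorem main : ∃ C : ℝ, ∀ n : ℕ, 2 ≤ n → ∀ (V : Type) [Fintype V] (H : SimpleGraph V),
    Fintype.card V ≤ n → H.edgeSet.Nonempty →
      pc n H ≤ C * pE n H * log n * exp (C * √(log (log n))) := by
  refine ⟨384 * exp 80, fun n hn V _ H hV hH => ?_⟩
  have hn' : (2 : ℝ) ≤ n := by exact_mod_cast hn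
  have hx : 0 < log n := log_pos (by linarith)
  have h80 : 1 ≤ exp 80 := one_le_exp (by norm_num)
  have hc : 0 < 384 * exp 80 * log n * exp (384 * exp 80 * √(log (log n))) := by positivity
  rw [show 384 * exp 80 * pE n H * log n * exp (384 * exp 80 * √(log (log n))) =
    pE n H * (384 * exp 80 * log n * exp (384 * exp 80 * √(log (log n)))) by ring,
    ← div_le_iff₀ hc]
  refine le_csInf ⟨1, ⟨zero_le_one, le_rfl⟩, fun F => ?_⟩ fun p hp => ?_
  · obtain ⟨f⟩ : Nonempty (V ↪ Fin n) := Function.Embedding.nonempty_of_card_le (by simpa)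
    have : 0 < (⊤ : SimpleGraph (Fin n)).copyCount F.coe := copyCount_pos.2
      ⟨⟨⟨fun v => f v, fun h e => h.ne (Subtype.ext (f.injective e))⟩,
        f.injective.comp Subtype.val_injective⟩⟩
    have : (1 : ℝ) ≤ (⊤ : SimpleGraph (Fin n)).copyCount F.coe := by exact_mod_cast this
    rw [gnpE_one]
    linarith
  · rw [div_le_iff₀ hc]
    refine (pc_le H hn hV hH hp.1 hp.2).trans ?_
    rw [exp_add]
    have h1 : exp (11 * √(log (log n))) ≤ exp (384 * exp 80 * √(log (log n))) :=
      exp_le_exp.2 (mul_le_mul_of_nonneg_right (by linarith) (sqrt_nonneg _))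
    have h2 := mul_le_mul_of_nonneg_left h1
      (show 0 ≤ 384 * p * log n * exp 80 by have := hp.1.1; positivity)
    linarith

end Vale.Agent.P064
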